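import Vale.Agent.P150.Critical

open MeasureTheory Filter
open scoped Topology

namespace Vale.Agent.Results.P150.CriticalSlowdown
open Vale.Agent.P150

theorem result :
    (∀ β : ℝ, 0 ≤ β → β ≤ 1 → ∀ ε : ℝ, 0 < ε → Tendsto (fun n : ℕ =>
      (disorder n).real {g | ∃ δ, (1 - β) ^ 2 + ε ≤ δ ∧ GapAtLeast β g δ}) atTop (𝓝 0)) ∧
    Tendsto (fun n : ℕ =>
      (disorder n).real {g | ∃ δ, (n:ℝ) ^ (-(1/100) : ℝ) ≤ δ ∧ GapAtLeast 1 g δ}) atTop (𝓝 0) ∧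
    Tendsto (fun n : ℕ =>
      (disorder n).real {g | ∃ t, 0 ≤ t ∧ t ≤ (n:ℝ) ^ (1/100 : ℝ) ∧ MixedAt 1 g t}) atTop (𝓝 0) :=
  ⟨fun β h0 h1 ε hε => gap_upper β h0 h1 ε hε, critical_slow⟩

end Vale.Agent.Results.P150.CriticalSlowdown
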