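import Vale.Agent.P150.High.Final

open MeasureTheory Filter
open scoped Topology

namespace Vale.Agent.Results.P150.FastHighTemperature
open Vale.Agent.P150

theorem result :
    (∀ β : ℝ, 0 ≤ β → β < 1 → ∃ δ c C : ℝ, 0 < δ ∧ 0 < c ∧ 0 < C ∧
      Tendsto (fun n : ℕ => (disorder n).real
        {g | GapAtLeast β g δ ∧ (∀ d : ℝ, GapAtLeast β g d → d ≤ 1) ∧ MixedAt β g (C * Real.log n) ∧
          ∀ t : ℝ, 0 ≤ t → t ≤ c * Real.log n → ¬ MixedAt β g t}) atTop (𝓝 1)) ∧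
    ∀ β : ℝ, 0 ≤ β → ∃ c : ℝ, 0 < c ∧ Tendsto (fun n : ℕ => (disorder n).real
        {g | ∀ t : ℝ, 0 ≤ t → t ≤ c * Real.log n → ¬ MixedAt β g t}) atTop (𝓝 1) :=
  ⟨High.Final.order_all, order_theorem.2⟩

end Vale.Agent.Results.P150.FastHighTemperature
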