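import Vale.Agent.P150.SlowOne

open MeasureTheory Filter
open scoped Topology

namespace Vale.Agent.Results.P150.SlowAboveOne
open Vale.Agent.P150

theorem result :
    ∀ β : ℝ, 1 < β →
      (∃ C c : ℝ, ∃ N₀ : ℕ, 0 < C ∧ 0 < c ∧ ∀ n ≥ N₀,
        (∀ M : ℝ, 0 < M →
          (disorder n).real {g | GapAtLeast β g (M / n)} ≤ C / Real.sqrt M + C * Real.exp (-(c * n))) ∧
        (∀ η : ℝ, 0 < η →
          (disorder n).real {g | ∃ t : ℝ, 0 ≤ t ∧ t ≤ η * n ∧ MixedAt β g t} ≤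
            C * Real.sqrt η + C * Real.exp (-(c * n)))) ∧
      ∀ K : ℝ, 0 < K → Tendsto (fun n : ℕ =>
        (disorder n).real {g | ∃ t : ℝ, 0 ≤ t ∧ t ≤ K * Real.log n ∧ MixedAt β g t}) atTop (𝓝 0) :=
  fun β hβ => slow_mixing_one β hβ

end Vale.Agent.Results.P150.SlowAboveOne
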